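import Vale.Agent.Lib.P322B.UnbChain

open Vale.Agent.Lib.P322 in
/-- The Courtade-Kumar inequality for every Boolean function in every dimension, whenever the
crossover probability is at most `33/80`, or the mean `2 P(f) - 1` has absolute value at least `1/4`,
or the function is balanced. -/
theorem Vale.Agent.Results.P322.AllFnsThreeRanges.result :
    ∀ (n : ℕ) (f : Cube n → Bool) (ε : ℝ), 0 ≤ ε → ε ≤ 1 / 2 →
      (ε ≤ 33 / 80 ∨ 1 / 4 ≤ |2 * probTrue f - 1| ∨ probTrue f = 1 / 2) →
      mutualInfoBits f ε ≤ 1 - h2 ε :=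
  fun _ f _ h0 h1 hcase => Vale.Agent.Lib.P322B.ck_partial2 f h0 h1 hcase
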