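import Vale.Agent.Lib.P322B.Final

open Vale.Agent.Lib.P322 in
/-- The Courtade-Kumar inequality for every balanced Boolean function, in every dimension and at
every noise level. -/
theorem Vale.Agent.Results.P322.BalancedAllNoise.result :
    ∀ (n : ℕ) (f : Cube n → Bool), probTrue f = 1 / 2 → ∀ ε : ℝ, 0 ≤ ε → ε ≤ 1 / 2 →
      mutualInfoBits f ε ≤ 1 - h2 ε :=
  fun _ f hf _ h0 h1 => Vale.Agent.Lib.P322B.balanced_ck f hf h0 h1
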