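import Vale.Agent.Lib.P322B.UnbChain
import Vale.Agent.Lib.P322HN.Assembly

open Vale.Agent.Lib.P322 in
/-- The Courtade-Kumar conjecture: for every `n`, every Boolean function `f` on the `n`-cube and
every crossover probability `ε ∈ [0,1/2]`, the mutual information between `f(X)` and the output `Y`
of `n` independent binary symmetric channels, in bits, is at most `1 - h2 ε`. -/
theorem Vale.Agent.Results.P322.FullCourtadeKumar.result :
    ∀ (n : ℕ) (f : Cube n → Bool) (ε : ℝ), 0 ≤ ε → ε ≤ 1 / 2 → mutualInfoBits f ε ≤ 1 - h2 ε := by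
  intro n f ε h0 h1
  by_cases hε : ε ≤ 33 / 80
  · exact Vale.Agent.Lib.P322B.ck_partial2 f h0 h1 (Or.inl hε)
  by_cases ha : 1 / 4 ≤ |2 * probTrue f - 1|
  · exact Vale.Agent.Lib.P322B.ck_partial2 f h0 h1 (Or.inr (Or.inl ha))
  push Not at hε ha
  exact Vale.Agent.Lib.P322HN.hn_ck f h0 h1 (by linarith) ha.le
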