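import Vale.Agent.Lib.P322.Limit

open Vale.Agent.Lib.P322 in
/-- Dimension-free, asymptotically sharp low-noise form of the Courtade-Kumar inequality. -/
theorem Vale.Agent.Results.P322.LowNoiseSharp.result (δ : ℝ) (hδ : 0 < δ) :
    ∃ ε₀ : ℝ, 0 < ε₀ ∧ ∀ ε : ℝ, 0 < ε → ε < ε₀ → ∀ (n : ℕ) (f : Cube n → Bool),
      mutualInfoBits f ε ≤
        h2 (probTrue f) - (1 - δ) * (4 * (probTrue f * (1 - probTrue f))) * h2 ε ∧
      mutualInfoBits f ε ≤ 1 - (1 - δ) * h2 ε :=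
  mutualInfo_low_noise hδ
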