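import Vale.Agent.Lib.P322.NearFinal

open Vale.Agent.Lib.P322 in
/-- The exact Courtade-Kumar inequality for all functions close to a dictator or anti-dictator,
with a noise range independent of the dimension. -/
theorem Vale.Agent.Results.P322.NearDictatorExact.result :
    ∃ ε₁ : ℝ, 0 < ε₁ ∧ ∀ ε : ℝ, 0 < ε → ε < ε₁ →
      ∀ (m : ℕ) (f : Cube (m + 1) → Bool) (i : Fin (m + 1)),
        (disagreeCoord f i ≤ 1 / 160 ∨ 1 - disagreeCoord f i ≤ 1 / 160) →
        mutualInfoBits f ε ≤ 1 - h2 ε :=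
  mutualInfo_near_dictator
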